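import Vale.Agent.P181.Z.H310.Last

set_option autoImplicit false

/-!
# P181 [ZL]: the linear clause, from the counting statement
-/

open Finset Filter

namespace Vale.Agent.P181.Z.H310

open Vale.Agent.P181 Vale.Agent.P181.H280
open Vale.Agent.P181.T4 (ex ex_of_lt ex_anti)
open Vale.Agent.P181.T7 (cells)

lemma ex_pad {k l : ℕ} (mu : Fin k → ℕ) :
    ex (fun i : Fin (k + l) => if h : (i : ℕ) < k then mu ⟨i, h⟩ else 0) = ex mu := by
  funext i
  unfold ex
  by_cases h : i < k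
  · rw [dif_pos h, dif_pos (show i < k + l by omega)]
    exact dif_pos h
  · rw [dif_neg h]
    by_cases h' : i < k + l
    · rw [dif_pos h']
      exact dif_neg h
    · rw [dif_neg h']

/-- Reduction to positive rows, with a condition on the row lengths. -/
theorem reduce {a b n : ℕ} (Q : (ℕ → ℕ) → Prop)
    (hk : ∀ k, k ≤ n → ∀ mu : Fin k → ℕ, Antitone mu → (∀ i, 0 < mu i) → ∑ i, mu i = a * b →
      Q (ex mu) → plethMult a b k mu ≤ plethMult b a k mu)
    (m : ℕ) (lam : Fin m → ℕ) (hcard : (univ.filter fun i => lam i ≠ 0).card ≤ n)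
    (hQ : Q (ex lam)) : plethMult a b m lam ≤ plethMult b a m lam := by
  by_cases hz : plethMult a b m lam = 0
  · rw [hz]
    exact Nat.zero_le _
  obtain ⟨hanti, hsum, _⟩ := H530.zero_stmt a b m lam hz
  -- the number of positive rows
  have hex : ∃ k, k = m ∨ ex lam k = 0 := ⟨m, Or.inl rfl⟩
  have h0 : Nat.find hex = m ∨ ex lam (Nat.find hex) = 0 := Nat.find_spec hex
  have hkN : Nat.find hex ≤ m := Nat.find_min' hex (Or.inl rfl)
  have hpos : ∀ i, i < Nat.find hex → 0 < ex lam i := by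
    intro i hi
    have h1 := Nat.find_min hex hi
    push Not at h1
    exact Nat.pos_of_ne_zero h1.2
  obtain ⟨k, hk'⟩ : ∃ k, k = Nat.find hex := ⟨_, rfl⟩
  rw [← hk'] at h0 hkN hpos
  clear hk'
  have hkn : k ≤ n := by
    refine le_trans ?_ hcard
    have h1 : (Finset.univ.filter fun i : Fin m => (i : ℕ) < k).card = k := by
      rw [Fin.card_filter_val_lt]
      exact min_eq_right hkN
    rw [← h1]
    apply Finset.card_le_card
    intro i hi
    rw [Finset.mem_filter] at hi ⊢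
    refine ⟨Finset.mem_univ _, ?_⟩
    have h2 := hpos i hi.2
    rw [ex_of_lt lam i.2] at h2
    exact h2.ne'
  have hzero : ∀ i : Fin m, k ≤ (i : ℕ) → lam i = 0 := by
    intro i hi
    rcases h0 with h1 | h1
    · exact absurd i.2 (by omega)
    · have h2 := ex_anti hanti hi
      rw [h1, ex_of_lt lam i.2] at h2
      exact Nat.le_zero.1 h2
  obtain ⟨l, rfl⟩ := Nat.exists_eq_add_of_le hkN
  obtain ⟨mu, hmu⟩ : ∃ mu : Fin k → ℕ, mu = fun j => lam (Fin.castAdd l j) := ⟨_, rfl⟩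
  have hlam' : lam = fun i : Fin (k + l) => if h : (i : ℕ) < k then mu ⟨i, h⟩ else 0 := by
    funext i
    by_cases hi : (i : ℕ) < k
    · rw [dif_pos hi, hmu]
      rfl
    · rw [dif_neg hi]
      exact hzero i (by omega)
  have hexe : ex lam = ex mu := by
    rw [hlam']
    exact ex_pad mu
  have hsum' : ∑ i, mu i = a * b := by
    rw [← hsum, Fin.sum_univ_add, hmu]
    have h2 : ∑ i : Fin l, lam (Fin.natAdd k i) = 0 := by
      apply Finset.sum_eq_zero
      intro i _
      exact hzero _ (by simp)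
    rw [h2, add_zero]
  rw [hlam', H530.pad_stmt a b k l mu, H530.pad_stmt b a k l mu]
  apply hk k hkn mu
  · intro i j hij
    rw [hmu]
    apply hanti
    exact hij
  · intro i
    have h1 := hpos i i.2
    rw [ex_of_lt lam (show (i : ℕ) < k + l by omega)] at h1
    rw [hmu]
    exact h1
  · exact hsum'
  · rw [← hexe]
    exact hQ

/-- The output of the linear assembly for `n + 3` rows. -/
def CoreL : Prop := ∀ (n : ℕ) (ε : ℝ), 0 < ε → ε ≤ 1 → ∃ (C : ℝ) (a0 : ℕ), ∀ a : ℕ, a0 ≤ a →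
  ∀ b : ℕ, C * a ≤ b → b + 1 ≤ a ^ 2 → ∀ lam : Fin (n + 3) → ℕ, Antitone lam →
  (∀ i, 0 < lam i) → ∑ i, lam i = b * a →
  ∏ i : Fin (n + 2), max 1 ((lam i.succ : ℝ) / a) ≤ (a : ℝ) ^ (1 - ε) →
  plethMult a b (n + 3) lam ≤ plethMult b a (n + 3) lam

/-- `CoreL` from the form with the exponent `1 - (n + 3) s`. -/
theorem coreL_of (H : ∀ (n : ℕ) (s : ℝ), 0 < s → s < 1 / 4 → ∃ (C : ℝ) (a0 : ℕ), ∀ a : ℕ, a0 ≤ a →
    ∀ b : ℕ, C * a ≤ b → b + 1 ≤ a ^ 2 → ∀ lam : Fin (n + 3) → ℕ, Antitone lam →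
    (∀ i, 0 < lam i) → ∑ i, lam i = b * a →
    ∏ i : Fin (n + 2), max 1 ((lam i.succ : ℝ) / a) ≤ (a : ℝ) ^ (1 - ((n : ℝ) + 3) * s) →
    plethMult a b (n + 3) lam ≤ plethMult b a (n + 3) lam) : CoreL := by
  intro n ε hε hε1
  have hn : (0 : ℝ) < (n : ℝ) + 3 := by positivity
  obtain ⟨C, a0, h⟩ := H n (min (ε / ((n : ℝ) + 3)) (1 / 5)) (lt_min (by positivity) (by norm_num))
    (lt_of_le_of_lt (min_le_right _ _) (by norm_num))
  refine ⟨C, max a0 1, fun a ha b hb hb2 lam h1 h2 h3 h4 => ?_⟩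
  have hA : (1 : ℝ) ≤ a := by exact_mod_cast (le_max_right a0 1).trans ha
  apply h a ((le_max_left _ _).trans ha) b hb hb2 lam h1 h2 h3
  refine h4.trans (Real.rpow_le_rpow_of_exponent_le hA ?_)
  have h5 : ((n : ℝ) + 3) * min (ε / ((n : ℝ) + 3)) (1 / 5) ≤ ε := by
    calc ((n : ℝ) + 3) * min (ε / ((n : ℝ) + 3)) (1 / 5) ≤ ((n : ℝ) + 3) * (ε / ((n : ℝ) + 3)) :=
          mul_le_mul_of_nonneg_left (min_le_left _ _) hn.le
      _ = ε := by field_simp
  linarith

lemma prod_ex_eq {m : ℕ} (lam : Fin m → ℕ) (A : ℝ) (M : ℕ) (hM : m ≤ M) :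
    ∏ i : Fin m, (if 1 ≤ (i : ℕ) then max 1 ((lam i : ℝ) / A) else 1) =
      ∏ i ∈ Ico 1 M, max 1 ((ex lam i : ℝ) / A) := by
  have h1 : ∏ i : Fin m, (if 1 ≤ (i : ℕ) then max 1 ((lam i : ℝ) / A) else 1) =
      ∏ i ∈ range m, (if 1 ≤ i then max 1 ((ex lam i : ℝ) / A) else 1) := by
    rw [Finset.prod_range]
    apply Finset.prod_congr rfl
    intro i _
    rw [ex_of_lt lam i.2]
  have h2 : ∏ i ∈ range m, (if 1 ≤ i then max 1 ((ex lam i : ℝ) / A) else 1) =
      ∏ i ∈ range M, (if 1 ≤ i then max 1 ((ex lam i : ℝ) / A) else 1) := by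
    apply Finset.prod_subset
    · intro i hi
      rw [Finset.mem_range] at hi ⊢
      omega
    · intro i _ hi
      rw [Finset.mem_range, not_lt] at hi
      rw [ex, dif_neg (by omega)]
      simp
  rw [h1, h2, ← Finset.prod_filter]
  apply Finset.prod_congr _ (fun _ _ => rfl)
  ext i
  simp only [Finset.mem_filter, Finset.mem_range, Finset.mem_Ico]
  tauto

/-- **The linear clause**, from the counting statement. -/
theorem linear_rows (H : CoreL) (n : ℕ) (ε : ℝ) (hε : 0 < ε) : ∃ C : ℝ, 1 ≤ C ∧ ∀ a b : ℕ,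
    C * (a : ℝ) ≤ b → ∀ (m : ℕ) (lam : Fin m → ℕ),
      (univ.filter fun i => lam i ≠ 0).card ≤ n →
      ∏ i : Fin m, (if 1 ≤ (i : ℕ) then max 1 ((lam i : ℝ) / a) else 1) ≤ (a : ℝ) ^ (1 - ε) →
      plethMult a b m lam ≤ plethMult b a m lam := by
  set e : ℝ := min ε 1 with he
  have he0 : 0 < e := lt_min hε one_pos
  have he1 : e ≤ 1 := min_le_right _ _
  have heε : e ≤ ε := min_le_left _ _
  -- one constant for all numbers of positive rows up to `n`
  have hC : ∃ C : ℝ, 3 ≤ C ∧ ∀ k, k < n → ∀ a b : ℕ, C * (a : ℝ) ≤ b →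
      ∀ lam : Fin (k + 3) → ℕ, Antitone lam → (∀ i, 0 < lam i) → ∑ i, lam i = a * b →
      ∏ i : Fin (k + 2), max 1 ((lam i.succ : ℝ) / a) ≤ (a : ℝ) ^ (1 - e) →
      plethMult a b (k + 3) lam ≤ plethMult b a (k + 3) lam := by
    induction n with
    | zero => exact ⟨3, le_rfl, fun k hk => absurd hk (Nat.not_lt_zero k)⟩
    | succ n ih =>
      obtain ⟨C, hC, h1⟩ := ih
      obtain ⟨C', a0, h2⟩ := H n e he0 he1
      refine ⟨max C (max C' a0), hC.trans (le_max_left _ _), fun k hk a b hb lam h3 h4 h5 h6 => ?_⟩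
      have h0 : (0 : ℝ) ≤ a := Nat.cast_nonneg a
      rcases Nat.lt_or_ge k n with hkn | hkn
      · exact h1 k hkn a b ((mul_le_mul_of_nonneg_right (le_max_left _ _) h0).trans hb) lam
          h3 h4 h5 h6
      · obtain rfl : k = n := by omega
        have hb' : max C' (a0 : ℝ) * a ≤ b :=
          (mul_le_mul_of_nonneg_right (le_max_right _ _) h0).trans hb
        rcases Nat.lt_or_ge a a0 with ha | ha
        · apply H463.big_stmt
          have h7 : (a0 : ℝ) * a ≤ b := (mul_le_mul_of_nonneg_right (le_max_right _ _) h0).trans hb'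
          have h8 : a0 * a ≤ b := by exact_mod_cast h7
          have h9 : (a - 1) ^ 2 ≤ a0 * a := by
            rw [pow_two]
            exact Nat.mul_le_mul (by omega) (by omega)
          exact h9.trans h8
        · rcases Nat.lt_or_ge b (a ^ 2) with hba | hba
          · exact h2 a ha b ((mul_le_mul_of_nonneg_right (le_max_left _ _) h0).trans hb') hba lam
              h3 h4 (by rw [h5, mul_comm]) h6
          · apply H463.big_stmt
            exact (Nat.pow_le_pow_left (Nat.sub_le a 1) 2).trans hba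
  obtain ⟨C, hC1, hC2⟩ := hC
  refine ⟨C, by linarith, fun a b hb m lam hcard hprod => ?_⟩
  rcases Nat.eq_zero_or_pos a with ha0 | ha0
  · apply H463.big_stmt
    rw [ha0]
    simp
  have hA : (1 : ℝ) ≤ a := by exact_mod_cast ha0
  have h3a : 3 * a ≤ b := by
    have h1 : (3 : ℝ) * a ≤ b := by nlinarith
    exact_mod_cast h1
  refine reduce (a := a) (b := b) (n := n)
    (fun f => ∏ i ∈ Ico 1 (m + n + 3), max 1 ((f i : ℝ) / a) ≤ (a : ℝ) ^ (1 - e)) ?_ m lam
    hcard ?_
  · intro k hk mu hmu hpos hsum hQ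
    rcases Nat.lt_or_ge k 3 with h3 | h3
    · apply H310.WG.w_all 0 mu
      have h4 : cells 2 mu = 0 := by
        unfold cells
        apply Finset.sum_eq_zero
        intro i _
        rw [if_neg]
        have := hk
        have h5 := i.2
        intro h6
        -- the third row would be positive
        exact absurd h6 (by omega)
      rw [h4]
      have h5 : ((3 * a : ℕ) : ℝ) ≤ b := by exact_mod_cast h3a
      push_cast at h5
      simpa using h5
    · obtain ⟨j, hj⟩ := Nat.exists_eq_add_of_le' h3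
      subst hj
      apply hC2 j (by omega) a b hb mu hmu hpos hsum
      rw [prod_succ_eq mu (a : ℝ)]
      refine le_trans (le_of_eq ?_) hQ
      rw [← prod_ex_eq mu (a : ℝ) (j + 2 + 1) le_rfl, ← prod_ex_eq mu (a : ℝ) (m + n + 3) (by omega)]
  · have h1 := prod_ex_eq lam (a : ℝ) (m + n + 3) (by omega)
    rw [← h1]
    exact hprod.trans (Real.rpow_le_rpow_of_exponent_le hA (by linarith))

end Vale.Agent.P181.Z.H310
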