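import Vale.Agent.P181.Z.H310.V1
import Vale.Agent.P181.Z.H503.Core
import Vale.Agent.P181.Z.H503.CoreL
import Vale.Agent.P181.Z.H503.CoreZ
import Vale.Agent.P181.Z.H328.AnaL
import Vale.Agent.P181.Z.H582.Quasi
import Vale.Agent.P181.Z.H59.FirstZ
import Vale.Agent.P181.H403.Z.TypeZ
import Vale.Agent.P181.H411.Short

set_option autoImplicit false

universe u

open scoped TensorProduct

open Vale.Agent.P181 Vale.Agent.P181.H280

namespace Vale.Agent.P181.Z.H310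

theorem rest (n : ℕ) (ε : ℝ) (hε : 0 < ε) :
    ∃ C : ℝ, ∀ a b : ℕ,
      (C * (a : ℝ) ^ (1 + ε) ≤ b → ∀ (m : ℕ) (lam : Fin m → ℕ),
        ((Finset.univ.filter fun i => 0 < lam i ∧ (lam i : ℝ) ≤ (a : ℝ) ^ (1 + ε)).card ≤ n ∨
          ∃ j : ℕ, 1 ≤ j ∧ C * (a : ℝ) ^ (1 + 1 / (j : ℝ) + ε) ≤
            ((∑ i : Fin m, if j ≤ (i : ℕ) then lam i else 0 : ℕ) : ℝ)) →
        plethMult a b m lam ≤ plethMult b a m lam) ∧
      (C * (a : ℝ) ≤ b → ∀ (m : ℕ) (lam : Fin m → ℕ),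
        (Finset.univ.filter fun i => lam i ≠ 0).card ≤ n →
        ∏ i : Fin m, (if 1 ≤ (i : ℕ) then max 1 ((lam i : ℝ) / a) else 1) ≤ (a : ℝ) ^ (1 - ε) →
        plethMult a b m lam ≤ plethMult b a m lam) := by
  obtain ⟨C, hC⟩ := Z.H310.v2.{0} (fun n g hg hg1 => Z.H503C.core n hg hg1)
    (fun H n ε hε => by
      obtain ⟨C, _, hC⟩ := H411.Sh.short_rows H n ε hε
      exact ⟨C, hC⟩)
    (Z.H310.coreL_of fun n s hs hs' => Z.H503L.coreL_of
      (fun E C0 s hs hs1 K hK => Z.H328.anaL n E C0 hs hs1 K hK) hs hs') n ε hε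
  exact ⟨C, fun a b => ⟨fun hb => ((hC a b).1 hb).2, (hC a b).2⟩⟩

/-- **Foulkes' conjecture in bounded dimension for `b ≥ C a (1 + log a) ^ c`.**

For every `n`:

* there are constants `C` and `c` such that for all `a` and `b` with `b ≥ C a (1 + log a) ^ c` and
  for every complex vector space `V` of dimension at most `n` there is an injective linear map
  `Sym^a(Sym^b V) → Sym^b(Sym^a V)` commuting with the maps induced by all linear maps `V → V`, and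
  the multiplicity of `S_λ(ℂ^m)` in `Sym^a(Sym^b ℂ^m)` is at most its multiplicity in
  `Sym^b(Sym^a ℂ^m)` for every `m` and every `λ ∈ ℕ^m` with at most `n` nonzero entries;
* for every `ε > 0` there is a constant `C` such that for all `a` and `b`:
  if `b ≥ C a ^ (1 + ε)` then this inequality holds for every `m` and every `λ ∈ ℕ^m` with at most
  `n` entries in the interval `(0, a ^ (1 + ε)]`, and for every `λ` such that, for some `j ≥ 1`,
  there are at least `C a ^ (1 + 1 / j + ε)` cells below the `j`-th row;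
  if `b ≥ C a` then this inequality holds for every `m` and every `λ ∈ ℕ^m` with at most `n`
  nonzero entries and `∏_{i ≥ 2} max (1, λ_i / a) ≤ a ^ (1 - ε)`. -/
theorem br2 (n : ℕ) :
    (∃ (C : ℝ) (c : ℕ), ∀ a b : ℕ, C * (a : ℝ) * (1 + Real.log a) ^ c ≤ b →
      (∀ (V : Type u) [AddCommGroup V] [Module ℂ V] [FiniteDimensional ℂ V],
        Module.finrank ℂ V ≤ n →
        ∃ Ψ : Sym[ℂ]^a (Sym[ℂ]^b V) →ₗ[ℂ] Sym[ℂ]^b (Sym[ℂ]^a V),
          (∀ g : V →ₗ[ℂ] V, Ψ ∘ₗ symMap a (symMap b g) = symMap b (symMap a g) ∘ₗ Ψ) ∧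
          Function.Injective Ψ) ∧
      ∀ (m : ℕ) (lam : Fin m → ℕ), (Finset.univ.filter fun i => lam i ≠ 0).card ≤ n →
        plethMult a b m lam ≤ plethMult b a m lam) ∧
    ∀ ε : ℝ, 0 < ε → ∃ C : ℝ, ∀ a b : ℕ,
      (C * (a : ℝ) ^ (1 + ε) ≤ b → ∀ (m : ℕ) (lam : Fin m → ℕ),
        ((Finset.univ.filter fun i => 0 < lam i ∧ (lam i : ℝ) ≤ (a : ℝ) ^ (1 + ε)).card ≤ n ∨
          ∃ j : ℕ, 1 ≤ j ∧ C * (a : ℝ) ^ (1 + 1 / (j : ℝ) + ε) ≤
            ((∑ i : Fin m, if j ≤ (i : ℕ) then lam i else 0 : ℕ) : ℝ)) →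
        plethMult a b m lam ≤ plethMult b a m lam) ∧
      (C * (a : ℝ) ≤ b → ∀ (m : ℕ) (lam : Fin m → ℕ),
        (Finset.univ.filter fun i => lam i ≠ 0).card ≤ n →
        ∏ i : Fin m, (if 1 ≤ (i : ℕ) then max 1 ((lam i : ℝ) / a) else 1) ≤ (a : ℝ) ^ (1 - ε) →
        plethMult a b m lam ≤ plethMult b a m lam) :=
  ⟨Z.H582.Q.quasi_rows.{u} (Z.H582.Q.coreQ_of Z.H503Z.coreZ H403.TypeZ.typeZ Z.H59F.firstZ) n,
    rest n⟩

end Vale.Agent.P181.Z.H310
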