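import Mathlib

set_option autoImplicit false

/-!
# P181 [Z]: the region left by the product criterion
-/

open Finset

namespace Vale.Agent.P181.Z.H310

/-- If the product criterion fails for every `m` and all rows are at most `A ^ (2 + 2 e)` then
`∏ max 1 (f i / A) ≤ A ^ (1 + s)`. -/
theorem region {h : ℕ} {A e s C : ℝ} (hA : 1 ≤ A) (he : 0 ≤ e) (f : ℕ → ℝ)
    (hf : ∀ i j, i ≤ j → f j ≤ f i) (hfh : f (h + 1) = 0)
    (hf1 : ∀ i, 1 ≤ i → f i ≤ A ^ (2 + 2 * e)) (hC : C ≤ A ^ (s - 4 * e * h))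
    (hP : A ^ (1 + s) < ∏ i ∈ Ico 1 (h + 1), max 1 (f i / A)) :
    ∃ m : ℕ, C * A ^ (1 + m * (1 + e)) ≤ ∏ i ∈ Ico 1 (m + 1), min (f i) (A ^ 2) := by
  classical
  have hA0 : (0 : ℝ) < A := by linarith
  have hex : ∃ m, f (m + 1) ≤ A ^ (1 + e) := ⟨h, by rw [hfh]; positivity⟩
  set m := Nat.find hex with hm
  have hm1 : f (m + 1) ≤ A ^ (1 + e) := Nat.find_spec hex
  have hmh : m ≤ h := Nat.find_min' hex (by rw [hfh]; positivity)
  have hm2 : ∀ i ∈ Ico 1 (m + 1), A ^ (1 + e) < f i := by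
    intro i hi
    rw [Finset.mem_Ico] at hi
    have h1 := Nat.find_min hex (show i - 1 < m by omega)
    rw [not_le, show i - 1 + 1 = i by omega] at h1
    exact h1
  refine ⟨m, ?_⟩
  set P := ∏ i ∈ Ico 1 (m + 1), min (f i) (A ^ 2) with hPdef
  have hmin0 : ∀ i ∈ Ico 1 (m + 1), 0 ≤ min (f i) (A ^ 2) := fun i hi =>
    le_min ((Real.rpow_nonneg hA0.le _).trans (hm2 i hi).le) (by positivity)
  have hP0 : 0 ≤ P := Finset.prod_nonneg hmin0
  have hA1 : A ^ (1 + e) = A * A ^ e := by rw [Real.rpow_add hA0, Real.rpow_one]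
  have hAe : 1 ≤ A ^ e := Real.one_le_rpow hA he
  have hA2e : 1 ≤ A ^ (2 * e) := Real.one_le_rpow hA (by positivity)
  -- the first rows
  have h1 : ∏ i ∈ Ico 1 (m + 1), max 1 (f i / A) ≤ P * (A ^ (2 * e - 1)) ^ m := by
    have h2 : ∏ i ∈ Ico 1 (m + 1), max 1 (f i / A) ≤
        ∏ i ∈ Ico 1 (m + 1), (min (f i) (A ^ 2) * A ^ (2 * e - 1)) := by
      apply Finset.prod_le_prod
      · intro i _
        exact le_trans zero_le_one (le_max_left _ _)
      · intro i hi
        have h3 := hm2 i hi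
        have h4 : 1 ≤ f i / A := by
          rw [le_div_iff₀ hA0]
          nlinarith
        rw [max_eq_right h4]
        have h5 : f i ≤ min (f i) (A ^ 2) * A ^ (2 * e) := by
          rcases le_total (f i) (A ^ 2) with h6 | h6
          · rw [min_eq_left h6]
            have h7 : 0 ≤ f i := (Real.rpow_nonneg hA0.le _).trans h3.le
            nlinarith
          · rw [min_eq_right h6]
            have h7 := hf1 i (Finset.mem_Ico.1 hi).1
            rw [Real.rpow_add hA0, Real.rpow_two] at h7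
            exact h7
        rw [Real.rpow_sub hA0, Real.rpow_one, div_le_iff₀ hA0]
        calc f i ≤ min (f i) (A ^ 2) * A ^ (2 * e) := h5
          _ = min (f i) (A ^ 2) * (A ^ (2 * e) / A) * A := by field_simp
    refine h2.trans (le_of_eq ?_)
    rw [Finset.prod_mul_distrib, Finset.prod_const, Nat.card_Ico, hPdef]
    simp
  have h2 : ∏ i ∈ Ico (m + 1) (h + 1), max 1 (f i / A) ≤ (A ^ e) ^ (h - m) := by
    have h3 : ∏ i ∈ Ico (m + 1) (h + 1), max 1 (f i / A) ≤ ∏ _i ∈ Ico (m + 1) (h + 1), A ^ e := by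
      apply Finset.prod_le_prod
      · intro i _
        exact le_trans zero_le_one (le_max_left _ _)
      · intro i hi
        rw [Finset.mem_Ico] at hi
        apply max_le hAe
        rw [div_le_iff₀ hA0]
        have h4 := (hf (m + 1) i hi.1).trans hm1
        rw [hA1] at h4
        linarith
    refine h3.trans (le_of_eq ?_)
    rw [Finset.prod_const, Nat.card_Ico, show h + 1 - (m + 1) = h - m by omega]
  have h3 : A ^ (1 + s) < P * (A ^ (2 * e - 1)) ^ m * (A ^ e) ^ (h - m) := by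
    refine hP.trans_le ?_
    rw [← Finset.prod_Ico_consecutive _ (show 1 ≤ m + 1 by omega) (show m + 1 ≤ h + 1 by omega)]
    apply mul_le_mul h1 h2
    · exact Finset.prod_nonneg fun i _ => le_trans zero_le_one (le_max_left _ _)
    · positivity
  have hmhR : (m : ℝ) ≤ h := by exact_mod_cast hmh
  have h4 : P * (A ^ (2 * e - 1)) ^ m * (A ^ e) ^ (h - m) =
      P * A ^ ((2 * e - 1) * m + e * (h - m)) := by
    rw [mul_assoc, ← Real.rpow_natCast (A ^ (2 * e - 1)) m, ← Real.rpow_natCast (A ^ e) (h - m),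
      ← Real.rpow_mul hA0.le, ← Real.rpow_mul hA0.le, ← Real.rpow_add hA0]
    congr 2
    rw [Nat.cast_sub hmh]
  rw [h4] at h3
  have h5 : A ^ (1 + s - ((2 * e - 1) * m + e * (h - m))) ≤ P := by
    rw [Real.rpow_sub hA0, div_le_iff₀ (by positivity)]
    exact h3.le
  have h6 : C * A ^ (1 + m * (1 + e)) ≤ A ^ (s - 4 * e * h) * A ^ (1 + m * (1 + e)) :=
    mul_le_mul_of_nonneg_right hC (by positivity)
  have h7 : A ^ (s - 4 * e * h) * A ^ (1 + m * (1 + e)) ≤
      A ^ (1 + s - ((2 * e - 1) * m + e * (h - m))) := by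
    rw [← Real.rpow_add hA0]
    apply Real.rpow_le_rpow_of_exponent_le hA
    have h8 : e * m ≤ e * h := mul_le_mul_of_nonneg_left hmhR he
    have h9 : 0 ≤ e * m := by positivity
    nlinarith
  exact h6.trans (h7.trans h5)

end Vale.Agent.P181.Z.H310
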