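import Vale.Agent.P181.T7.Done
import Vale.Agent.P181.T7.Cond
import Vale.Agent.P181.H12.Beta
import Vale.Agent.P181.H310.T54
import Vale.Agent.P181.H412.Nat10
import Vale.Agent.P181.H503.NatAll
import Vale.Agent.P181.H530.Inj
import Vale.Agent.P181.H310.WReal
import Vale.Agent.P181.Z.H310.Region

set_option autoImplicit false

/-!
# P181 [Z]: bounded numbers of rows, from the counting statement

`Core h` is the statement for `h + 1` positive rows, for large `a`, in the region which is left by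
the known results. `bounded_rows` gives the theorem for all partitions with at most `n` rows.
-/

open scoped TensorProduct

universe u

open Finset Filter

namespace Vale.Agent.P181.Z.H310

open Vale.Agent.P181 Vale.Agent.P181.H280
open Vale.Agent.P181.T4 (ex ex_of_lt ex_anti)
open Vale.Agent.P181.T7 (cells)

/-- The counting statement for `h + 1` positive rows. -/
def Core (h : ℕ) : Prop := ∀ g : ℝ, 0 < g → ∃ s : ℝ, 0 < s ∧ ∀ᶠ a : ℕ in atTop, ∀ b : ℕ,
  (a : ℝ) ^ (1 + g) ≤ b → (b : ℝ) ≤ (a : ℝ) ^ (5 / 4 + s) → ∀ lam : Fin (h + 1) → ℕ,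
  Antitone lam → ∑ i, lam i = a * b → (∀ i, 0 < lam i) → b < cells 2 lam + 3 * a →
  (cells 1 lam : ℝ) ≤ (a : ℝ) ^ (2 + s) →
  ∏ i : Fin h, max 1 ((lam i.succ : ℝ) / a) ≤ (a : ℝ) ^ (1 + s) →
  plethMult a b (h + 1) lam ≤ plethMult b a (h + 1) lam

lemma ex_le_cells {n : ℕ} (lam : Fin n → ℕ) (i : ℕ) (hi : 1 ≤ i) : ex lam i ≤ cells 1 lam := by
  by_cases h : i < n
  · rw [ex_of_lt lam h]
    have h1 : (if 1 ≤ ((⟨i, h⟩ : Fin n) : ℕ) then lam ⟨i, h⟩ else 0) ≤ cells 1 lam :=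
      Finset.single_le_sum (f := fun j : Fin n => if 1 ≤ (j : ℕ) then lam j else 0)
        (fun _ _ => Nat.zero_le _) (Finset.mem_univ (⟨i, h⟩ : Fin n))
    rwa [if_pos hi] at h1
  · rw [ex, dif_neg h]
    exact Nat.zero_le _

lemma prod_succ_eq {h : ℕ} (lam : Fin (h + 1) → ℕ) (A : ℝ) :
    ∏ i : Fin h, max 1 ((lam i.succ : ℝ) / A) =
      ∏ i ∈ Ico 1 (h + 1), max 1 ((ex lam i : ℝ) / A) := by
  rw [Finset.prod_Ico_eq_prod_range, Nat.add_sub_cancel, Finset.prod_range]
  apply Finset.prod_congr rfl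
  intro i _
  rw [ex_of_lt lam (show 1 + (i : ℕ) < h + 1 by omega)]
  congr 4
  ext
  simp [Fin.val_succ, add_comm]

/-- `h + 1` positive rows, all `a`. -/
theorem rows_pos {h : ℕ} (hc : Core h) (ε : ℝ) (hε : 0 < ε) : ∃ C : ℝ, 1 ≤ C ∧ ∀ a b : ℕ,
    C * (a : ℝ) ^ (1 + ε) ≤ b → ∀ lam : Fin (h + 1) → ℕ, (∀ i, 0 < lam i) →
    plethMult a b (h + 1) lam ≤ plethMult b a (h + 1) lam := by
  obtain ⟨s, hs, hcore⟩ := hc ε hε
  set e : ℝ := min s ε / (8 * ((h : ℝ) + 1)) with he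
  have hh0 : (0 : ℝ) ≤ h := Nat.cast_nonneg h
  have hmin : 0 < min s ε := lt_min hs hε
  have he0 : 0 < e := by positivity
  have he8 : e * (8 * ((h : ℝ) + 1)) = min s ε := by rw [he]; field_simp
  have hes : 8 * (e * h) + 8 * e ≤ s := by
    have h1 := min_le_left s ε
    nlinarith
  have heε : 8 * (e * h) + 8 * e ≤ ε := by
    have h1 := min_le_right s ε
    nlinarith
  have heh : 0 ≤ e * h := by positivity
  obtain ⟨C₁, hC₁, h1⟩ := H412.const_of_eventually' (x := 5 / 4 + s / 2) (by linarith)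
    (fun _ _ _ => True) (fun _ _ _ _ _ => trivial) (by
      filter_upwards [H310.t54 (s / 2) (by positivity)] with a ha b hb lam hlam hsum _
      exact ha b hb lam hlam hsum)
  obtain ⟨C₂, hC₂, h2⟩ := H503.nat_all e he0
  obtain ⟨C₃, hC₃, h3⟩ := T7.const_of_eventually (j := 1) he0 (by linarith : (0 : ℝ) ≤ 1 + e)
    (H12.first_row T7.f_done H463.big_stmt e he0)
  obtain ⟨a₀, hev⟩ := Filter.eventually_atTop.1 ((hcore.and (H12.ev_ge (s / 2) C₁ (by positivity))).and
    ((H12.ev_ge (ε - e) C₂ (by linarith)).and ((H12.ev_ge (ε - e) C₃ (by linarith)).and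
      ((H12.ev_ge e C₃ he0).and ((H12.ev_ge (s - 4 * e * h) C₂ (by nlinarith)).and
        (eventually_ge_atTop 1))))))
  refine ⟨(a₀ : ℝ) ^ 2 + 1, by nlinarith [sq_nonneg (a₀ : ℝ)], fun a b hb lam hpos => ?_⟩
  rcases Nat.lt_or_ge a a₀ with ha | ha
  · apply H463.big_stmt
    rcases Nat.eq_zero_or_pos a with ha0 | ha0
    · subst ha0
      simp
    · have h4 : (1 : ℝ) ≤ (a : ℝ) ^ (1 + ε) :=
        Real.one_le_rpow (by exact_mod_cast ha0) (by linarith)
      have h5 : (a₀ : ℝ) ^ 2 ≤ b := by nlinarith [sq_nonneg (a₀ : ℝ)]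
      have h6 : a₀ ^ 2 ≤ b := by exact_mod_cast h5
      exact (Nat.pow_le_pow_left (by omega) 2).trans h6
  obtain ⟨⟨hco, e1⟩, e2, e3, e4, e5, ha1⟩ := hev a ha
  have hA : (1 : ℝ) ≤ a := by exact_mod_cast ha1
  have hA0 : (0 : ℝ) < a := by linarith
  have hb1 : (a : ℝ) ^ (1 + ε) ≤ b := by
    have h4 : (0 : ℝ) ≤ (a : ℝ) ^ (1 + ε) := by positivity
    nlinarith [sq_nonneg (a₀ : ℝ)]
  by_cases hz : plethMult a b (h + 1) lam = 0
  · rw [hz]
    exact Nat.zero_le _
  obtain ⟨hanti, hsum, _⟩ := H530.zero_stmt a b (h + 1) lam hz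
  -- large `b`
  rcases le_or_gt (b : ℝ) ((a : ℝ) ^ (5 / 4 + s)) with hb5 | hb5
  swap
  · refine h1 a b (h + 1) lam ?_ trivial
    refine le_trans ?_ hb5.le
    calc C₁ * (a : ℝ) ^ (5 / 4 + s / 2) ≤ (a : ℝ) ^ (s / 2) * (a : ℝ) ^ (5 / 4 + s / 2) :=
          mul_le_mul_of_nonneg_right e1 (by positivity)
      _ = (a : ℝ) ^ (5 / 4 + s) := by
          rw [← Real.rpow_add hA0]
          congr 1
          ring
  -- few cells below the second row
  rcases Nat.lt_or_ge b (cells 2 lam + 3 * a) with h2c | h2c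
  swap
  · apply H310.WG.w_all 0 lam
    have h4 : ((cells 2 lam + 3 * a : ℕ) : ℝ) ≤ b := by exact_mod_cast h2c
    push_cast at h4
    simpa using h4
  -- many cells below the first row
  have hC1e : ∀ C : ℝ, C ≤ (a : ℝ) ^ (ε - e) → C * (a : ℝ) ^ (1 + e) ≤ b := by
    intro C hC
    refine le_trans ?_ hb1
    calc C * (a : ℝ) ^ (1 + e) ≤ (a : ℝ) ^ (ε - e) * (a : ℝ) ^ (1 + e) :=
          mul_le_mul_of_nonneg_right hC (by positivity)
      _ = (a : ℝ) ^ (1 + ε) := by
          rw [← Real.rpow_add hA0]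
          congr 1
          ring
  rcases le_or_gt (C₃ * (a : ℝ) ^ (2 + e)) (cells 1 lam) with hc1 | hc1
  · exact h3 a b (h + 1) lam (hC1e C₃ e3) hc1
  have hc2 : (cells 1 lam : ℝ) ≤ (a : ℝ) ^ (2 + 2 * e) := by
    refine hc1.le.trans ?_
    calc C₃ * (a : ℝ) ^ (2 + e) ≤ (a : ℝ) ^ e * (a : ℝ) ^ (2 + e) :=
          mul_le_mul_of_nonneg_right e4 (by positivity)
      _ = (a : ℝ) ^ (2 + 2 * e) := by
          rw [← Real.rpow_add hA0]
          congr 1
          ring
  have hc3 : (cells 1 lam : ℝ) ≤ (a : ℝ) ^ (2 + s) :=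
    hc2.trans (Real.rpow_le_rpow_of_exponent_le hA (by linarith))
  -- the product criterion
  rcases le_or_gt (∏ i : Fin h, max 1 ((lam i.succ : ℝ) / a)) ((a : ℝ) ^ (1 + s)) with hp | hp
  · exact hco b hb1 hb5 lam hanti hsum hpos h2c hc3 hp
  · refine h2 a b (h + 1) lam (hC1e C₂ e2) ?_
    rw [prod_succ_eq] at hp
    refine region hA he0.le (fun i => (ex lam i : ℝ)) ?_ ?_ ?_ e5 hp
    · intro i j hij
      exact_mod_cast ex_anti hanti hij
    · show ((ex lam (h + 1) : ℕ) : ℝ) = 0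
      rw [ex, dif_neg (by omega)]
      simp
    · intro i hi
      refine le_trans ?_ hc2
      exact_mod_cast ex_le_cells lam i hi

/-- All partitions with at most `n` rows. -/
theorem rows_le (hc : ∀ h, Core h) (n : ℕ) (ε : ℝ) (hε : 0 < ε) : ∃ C : ℝ, 1 ≤ C ∧ ∀ a b : ℕ,
    C * (a : ℝ) ^ (1 + ε) ≤ b → ∀ (N : ℕ) (lam : Fin N → ℕ),
    (∀ i : Fin N, n ≤ (i : ℕ) → lam i = 0) →
    plethMult a b N lam ≤ plethMult b a N lam := by
  -- one constant for all numbers of positive rows up to `n`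
  have hC : ∃ C : ℝ, 1 ≤ C ∧ ∀ k, k < n → ∀ a b : ℕ,
      C * (a : ℝ) ^ (1 + ε) ≤ b → ∀ lam : Fin (k + 1) → ℕ, (∀ i, 0 < lam i) →
      plethMult a b (k + 1) lam ≤ plethMult b a (k + 1) lam := by
    induction n with
    | zero => exact ⟨1, le_rfl, fun k hk => absurd hk (Nat.not_lt_zero k)⟩
    | succ n ih =>
      obtain ⟨C, hC, h1⟩ := ih
      obtain ⟨C', hC', h2⟩ := rows_pos (hc n) ε hε
      refine ⟨max C C', hC.trans (le_max_left _ _), fun k hk a b hb lam hpos => ?_⟩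
      have h0 : (0 : ℝ) ≤ (a : ℝ) ^ (1 + ε) := by positivity
      rcases Nat.lt_or_ge k n with hkn | hkn
      · exact h1 k hkn a b ((mul_le_mul_of_nonneg_right (le_max_left _ _) h0).trans hb) lam hpos
      · obtain rfl : k = n := by omega
        exact h2 a b ((mul_le_mul_of_nonneg_right (le_max_right _ _) h0).trans hb) lam hpos
  obtain ⟨C, hC1, hC2⟩ := hC
  refine ⟨C, hC1, fun a b hb N lam hlam => ?_⟩
  by_cases hz : plethMult a b N lam = 0
  · rw [hz]
    exact Nat.zero_le _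
  obtain ⟨hanti, hsum, _⟩ := H530.zero_stmt a b N lam hz
  -- the number of positive rows
  have hex : ∃ k, k = N ∨ ex lam k = 0 := ⟨N, Or.inl rfl⟩
  set k := Nat.find hex with hk
  have hkN : k ≤ N := Nat.find_min' hex (Or.inl rfl)
  have hkn : k ≤ n := by
    rcases Nat.lt_or_ge n N with h | h
    · apply Nat.find_min' hex
      right
      rw [ex_of_lt lam h]
      exact hlam _ le_rfl
    · omega
  have hpos : ∀ i, i < k → 0 < ex lam i := by
    intro i hi
    have h1 := Nat.find_min hex hi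
    push Not at h1
    exact Nat.pos_of_ne_zero h1.2
  have hzero : ∀ i : Fin N, k ≤ (i : ℕ) → lam i = 0 := by
    intro i hi
    have h0 : k = N ∨ ex lam k = 0 := Nat.find_spec hex
    rcases h0 with h1 | h1
    · exact absurd i.2 (by omega)
    · have h2 := ex_anti hanti hi
      rw [h1, ex_of_lt lam i.2] at h2
      exact Nat.le_zero.1 h2
  clear hk
  clear_value k
  obtain ⟨l, rfl⟩ := Nat.exists_eq_add_of_le hkN
  obtain ⟨mu, hmu⟩ : ∃ mu : Fin k → ℕ, mu = fun j => lam (Fin.castAdd l j) := ⟨_, rfl⟩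
  have hlam' : lam = fun i : Fin (k + l) => if h : (i : ℕ) < k then mu ⟨i, h⟩ else 0 := by
    funext i
    by_cases hi : (i : ℕ) < k
    · rw [dif_pos hi, hmu]
      rfl
    · rw [dif_neg hi]
      exact hzero i (by omega)
  rw [hlam', H530.pad_stmt a b k l mu, H530.pad_stmt b a k l mu]
  rcases Nat.eq_zero_or_pos k with hk0 | hk0
  · -- no positive row: `a * b = 0`
    have h1 : ∑ i, lam i = 0 := by
      apply Finset.sum_eq_zero
      intro i _
      exact hzero i (by omega)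
    rw [h1] at hsum
    rcases Nat.eq_zero_or_pos a with ha | ha
    · apply H463.big_stmt
      rw [ha]
      simp
    · have hb0 : b = 0 := by
        rcases Nat.mul_eq_zero.1 hsum.symm with h2 | h2
        · omega
        · exact h2
      have h2 : (0 : ℝ) < (a : ℝ) ^ (1 + ε) := by positivity
      rw [hb0] at hb
      have h3 : C * (a : ℝ) ^ (1 + ε) ≤ 0 := by simpa using hb
      nlinarith
  · obtain ⟨h, hh⟩ : ∃ h, k = h + 1 := ⟨k - 1, by omega⟩
    have key : ∀ (k' : ℕ) (mu : Fin k' → ℕ), k' = h + 1 → (∀ i, 0 < mu i) →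
        plethMult a b k' mu ≤ plethMult b a k' mu := by
      rintro k' mu rfl hmu
      exact hC2 h (by omega) a b hb mu hmu
    apply key k mu hh
    intro i
    have h1 := hpos i i.2
    rw [ex_of_lt lam (show (i : ℕ) < k + l by omega)] at h1
    rw [hmu]
    exact h1

/-- Foulkes' conjecture for one vector space from the multiplicities. -/
theorem injection_of_mult {a b n : ℕ}
    (h : ∀ N, N ≤ n → ∀ lam : Fin N → ℕ, plethMult a b N lam ≤ plethMult b a N lam)
    (V : Type u) [AddCommGroup V] [Module ℂ V] [FiniteDimensional ℂ V]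
    (hV : Module.finrank ℂ V ≤ n) :
    ∃ Ψ : H421.PP a b V →ₗ[ℂ] H421.PP b a V, H421.Commutes Ψ ∧ Function.Injective Ψ := by
  let N := Module.finrank ℂ V
  let e : V ≃ₗ[ℂ] (Fin N → ℂ) := (Module.finBasis ℂ V).equivFun
  obtain ⟨Ψ, h1, h2⟩ := H530.exists_injective a b N (h N hV)
  let Ψ' : Sym[ℂ]^a (Sym[ℂ]^b (Fin N → ℂ)) →ₗ[ℂ] Sym[ℂ]^b (Sym[ℂ]^a (Fin N → ℂ)) := Ψ
  have h1' : ∀ g x, Ψ' (plethAct a b N g x) = plethAct b a N g (Ψ' x) := h1
  refine ⟨H530.sm2 b a e.symm.toLinearMap ∘ₗ Ψ' ∘ₗ H530.sm2 a b e.toLinearMap, ?_, ?_⟩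
  · intro g
    apply LinearMap.ext
    intro x
    have hinj : Function.Injective (H530.sm2 b a e.toLinearMap) :=
      Function.LeftInverse.injective (H530.sm2_left_inv b a e)
    have hri : ∀ y, H530.sm2 b a e.toLinearMap (H530.sm2 b a e.symm.toLinearMap y) = y := fun y =>
      H530.sm2_left_inv b a e.symm y
    apply hinj
    rw [LinearMap.comp_apply, LinearMap.comp_apply, LinearMap.comp_apply, hri, H530.sm2_symMap,
      LinearMap.comp_apply, H530.sm2_symMap, LinearMap.comp_apply, LinearMap.comp_apply, hri]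
    exact h1' _ _
  · have h3 : Function.Injective (H530.sm2 b a e.symm.toLinearMap) :=
      Function.LeftInverse.injective (H530.sm2_left_inv b a e.symm)
    have h4 : Function.Injective (H530.sm2 a b e.toLinearMap) :=
      Function.LeftInverse.injective (H530.sm2_left_inv a b e)
    have h2' : Function.Injective Ψ' := h2
    exact h3.comp (h2'.comp h4)

/-- **Foulkes' conjecture in bounded dimension**, from the counting statements. -/
theorem bounded_dim (hc : ∀ h, Core h) (n : ℕ) (ε : ℝ) (hε : 0 < ε) : ∃ C : ℝ, ∀ a b : ℕ,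
    C * (a : ℝ) ^ (1 + ε) ≤ b →
      (∀ (V : Type u) [AddCommGroup V] [Module ℂ V] [FiniteDimensional ℂ V],
        Module.finrank ℂ V ≤ n →
        ∃ Ψ : H421.PP a b V →ₗ[ℂ] H421.PP b a V, H421.Commutes Ψ ∧ Function.Injective Ψ) ∧
      ∀ (N : ℕ) (lam : Fin N → ℕ), (∀ i : Fin N, n ≤ (i : ℕ) → lam i = 0) →
        plethMult a b N lam ≤ plethMult b a N lam := by
  obtain ⟨C, _, hC⟩ := rows_le hc n ε hε
  refine ⟨C, fun a b hb => ⟨?_, hC a b hb⟩⟩
  intro V _ _ _ hV
  exact injection_of_mult (fun N hN lam => hC a b hb N lam fun i hi =>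
    absurd i.2 (by omega)) V hV

end Vale.Agent.P181.Z.H310
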