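import Vale.Agent.P181.Z.H310.End

set_option autoImplicit false

/-!
# P181 [Z]: the final statement, from the counting statements
-/

open scoped TensorProduct

universe u

open Finset Filter

namespace Vale.Agent.P181.Z.H310

open Vale.Agent.P181 Vale.Agent.P181.H280

/-- The hand-in statement, from `Core`. -/
theorem bounded_rows (hc : ∀ h, Core h) (n : ℕ) (ε : ℝ) (hε : 0 < ε) : ∃ C : ℝ, ∀ a b : ℕ,
    C * (a : ℝ) ^ (1 + ε) ≤ b →
      (∀ (V : Type u) [AddCommGroup V] [Module ℂ V] [FiniteDimensional ℂ V],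
        Module.finrank ℂ V ≤ n →
        ∃ Ψ : Sym[ℂ]^a (Sym[ℂ]^b V) →ₗ[ℂ] Sym[ℂ]^b (Sym[ℂ]^a V),
          (∀ g : V →ₗ[ℂ] V, Ψ ∘ₗ symMap a (symMap b g) = symMap b (symMap a g) ∘ₗ Ψ) ∧
          Function.Injective Ψ) ∧
      ∀ (m : ℕ) (lam : Fin m → ℕ), (univ.filter fun i => lam i ≠ 0).card ≤ n →
        plethMult a b m lam ≤ plethMult b a m lam := by
  obtain ⟨C, hC⟩ := bounded_dim.{u} hc n ε hε
  refine ⟨C, fun a b hb => ⟨?_, ?_⟩⟩
  · intro V _ _ _ hV
    exact (hC a b hb).1 V hV
  · intro m lam hcard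
    by_cases hz : plethMult a b m lam = 0
    · rw [hz]
      exact Nat.zero_le _
    obtain ⟨hanti, _, _⟩ := H530.zero_stmt a b m lam hz
    apply (hC a b hb).2 m lam
    intro i hi
    by_contra hne
    have h1 : (Finset.univ.filter fun j : Fin m => j ≤ i) ⊆ univ.filter fun j => lam j ≠ 0 := by
      intro j hj
      rw [Finset.mem_filter] at hj ⊢
      refine ⟨Finset.mem_univ _, ?_⟩
      have h2 := hanti hj.2
      omega
    have h2 := (Finset.card_le_card h1).trans hcard
    have h3 : (Finset.univ.filter fun j : Fin m => j ≤ i).card = (i : ℕ) + 1 := by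
      have h4 : (Finset.univ.filter fun j : Fin m => j ≤ i) = Finset.Iic i := by
        ext j
        simp
      rw [h4, Fin.card_Iic]
    omega

end Vale.Agent.P181.Z.H310
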