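import Vale.Agent.P181.Z.H310.Last

set_option autoImplicit false

/-!
# P181 [Z]: `Core` from the output of the assembly
-/

open scoped TensorProduct

universe u

open Finset Filter

namespace Vale.Agent.P181.Z.H310

open Vale.Agent.P181 Vale.Agent.P181.H280
open Vale.Agent.P181.T4 (ex ex_of_lt ex_anti)
open Vale.Agent.P181.T7 (cells)

/-- The output of the assembly for `n + 3` rows. -/
def CoreN : Prop := ∀ (n : ℕ) (g : ℝ), 0 < g → g ≤ 1 → ∃ a0 : ℕ, ∀ a : ℕ, a0 ≤ a → ∀ b : ℕ,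
  (a : ℝ) ^ (1 + g) ≤ b → b + 1 ≤ a ^ 2 → ∀ lam : Fin (n + 3) → ℕ, Antitone lam →
  (∀ i, 0 < lam i) → ∑ i, lam i = b * a →
  ∏ i : Fin (n + 2), max 1 ((lam i.succ : ℝ) / a) ≤ (a : ℝ) ^ (1 + g / 16) →
  (lam 1 : ℝ) ≤ (a : ℝ) ^ (2 + g / 2) →
  plethMult a b (n + 3) lam ≤ plethMult b a (n + 3) lam

lemma cells_small {h : ℕ} (hh : h ≤ 1) (lam : Fin (h + 1) → ℕ) : cells 2 lam = 0 := by
  unfold cells
  apply Finset.sum_eq_zero
  intro i _
  rw [if_neg (by have := i.2; omega)]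

theorem core_of (H : CoreN) (h : ℕ) : Core h := by
  intro g hg
  rcases Nat.lt_or_ge h 2 with hh | hh
  · refine ⟨1, one_pos, ?_⟩
    filter_upwards [H12.ev_ge g 3 hg, eventually_ge_atTop 1] with a h3 ha b hb _ lam _ _ _ hc _ _
    exfalso
    rw [cells_small (by omega) lam, zero_add] at hc
    have hA : (0 : ℝ) < a := by exact_mod_cast ha
    rw [Real.rpow_add hA, Real.rpow_one] at hb
    have h4 : (b : ℝ) < 3 * a := by exact_mod_cast hc
    nlinarith
  · obtain ⟨n, rfl⟩ := Nat.exists_eq_add_of_le' hh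
    set g' : ℝ := min g 1 with hg'
    have hg0 : 0 < g' := lt_min hg one_pos
    have hg1 : g' ≤ 1 := min_le_right _ _
    have hgg : g' ≤ g := min_le_left _ _
    obtain ⟨a0, h0⟩ := H n g' hg0 hg1
    refine ⟨g' / 16, by positivity, ?_⟩
    filter_upwards [H12.ev_ge (1 / 4) 2 (by norm_num), eventually_ge_atTop 1,
      eventually_ge_atTop a0] with a h2 ha ha0 b hb hb2 lam hanti hsum hpos hc hc1 hp
    have hA1 : (1 : ℝ) ≤ a := by exact_mod_cast ha
    have hA : (0 : ℝ) < a := by linarith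
    apply h0 a ha0 b ?_ ?_ lam hanti hpos ?_ hp ?_
    · exact (Real.rpow_le_rpow_of_exponent_le hA1 (by linarith)).trans hb
    · have h3 : (b : ℝ) + 1 ≤ (a : ℝ) ^ (2 : ℝ) := by
        have h4 : (a : ℝ) ^ (5 / 4 + g' / 16) ≤ (a : ℝ) ^ (7 / 4 : ℝ) :=
          Real.rpow_le_rpow_of_exponent_le hA1 (by linarith)
        have h5 : (1 : ℝ) ≤ (a : ℝ) ^ (7 / 4 : ℝ) := Real.one_le_rpow hA1 (by norm_num)
        have h6 : (a : ℝ) ^ (2 : ℝ) = (a : ℝ) ^ (1 / 4 : ℝ) * (a : ℝ) ^ (7 / 4 : ℝ) := by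
          rw [← Real.rpow_add hA]
          norm_num
        rw [h6]
        nlinarith
      rw [Real.rpow_two] at h3
      exact_mod_cast h3
    · rw [hsum, mul_comm]
    · have h3 : (lam 1 : ℝ) ≤ cells 1 lam := by
        have h4 := ex_le_cells lam 1 le_rfl
        rw [ex_of_lt lam (show 1 < n + 2 + 1 by omega)] at h4
        exact_mod_cast h4
      refine (h3.trans hc1).trans (Real.rpow_le_rpow_of_exponent_le hA1 (by linarith))

end Vale.Agent.P181.Z.H310
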