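import Vale.Agent.P181.Z.H310.OfCore
import Vale.Agent.P181.Z.H310.EndL
import Vale.Agent.P181.T8.Done

set_option autoImplicit false

/-!
# P181 [Z]: the hand-in statements, from the leaves
-/

open scoped TensorProduct

universe u

open Finset Filter

namespace Vale.Agent.P181.Z.H310

open Vale.Agent.P181 Vale.Agent.P181.H280

/-- all partitions with boundedly many nonzero rows -/
def RowsStmt : Prop := ∀ (n : ℕ) (ε : ℝ), 0 < ε → ∃ C : ℝ, ∀ a b : ℕ, C * (a : ℝ) ^ (1 + ε) ≤ b →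
  ∀ (m : ℕ) (lam : Fin m → ℕ), (univ.filter fun i => lam i ≠ 0).card ≤ n →
    plethMult a b m lam ≤ plethMult b a m lam

/-- all partitions with boundedly many short rows -/
def ShortStmt : Prop := ∀ (n : ℕ) (ε : ℝ), 0 < ε → ∃ C : ℝ, ∀ a b : ℕ, C * (a : ℝ) ^ (1 + ε) ≤ b →
  ∀ (m : ℕ) (lam : Fin m → ℕ),
    (univ.filter fun i => 0 < lam i ∧ (lam i : ℝ) ≤ (a : ℝ) ^ (1 + ε)).card ≤ n →
    plethMult a b m lam ≤ plethMult b a m lam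

theorem rowsStmt (hc : CoreN) : RowsStmt := fun n ε hε => by
  obtain ⟨C, hC⟩ := bounded_rows.{0} (core_of hc) n ε hε
  exact ⟨C, fun a b hb => (hC a b hb).2⟩

/-- Version 1. -/
theorem v1 (hc : CoreN) (hs : RowsStmt → ShortStmt) (n : ℕ) (ε : ℝ) (hε : 0 < ε) :
    ∃ C : ℝ, ∀ a b : ℕ, C * (a : ℝ) ^ (1 + ε) ≤ b →
      (∀ (V : Type u) [AddCommGroup V] [Module ℂ V] [FiniteDimensional ℂ V],
        Module.finrank ℂ V ≤ n →
        ∃ Ψ : Sym[ℂ]^a (Sym[ℂ]^b V) →ₗ[ℂ] Sym[ℂ]^b (Sym[ℂ]^a V),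
          (∀ g : V →ₗ[ℂ] V, Ψ ∘ₗ symMap a (symMap b g) = symMap b (symMap a g) ∘ₗ Ψ) ∧
          Function.Injective Ψ) ∧
      ∀ (m : ℕ) (lam : Fin m → ℕ),
        ((univ.filter fun i => 0 < lam i ∧ (lam i : ℝ) ≤ (a : ℝ) ^ (1 + ε)).card ≤ n ∨
          ∃ j : ℕ, 1 ≤ j ∧ C * (a : ℝ) ^ (1 + 1 / (j : ℝ) + ε) ≤
            ((∑ i : Fin m, if j ≤ (i : ℕ) then lam i else 0 : ℕ) : ℝ)) →
        plethMult a b m lam ≤ plethMult b a m lam := by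
  obtain ⟨C₁, h1⟩ := bounded_rows.{u} (core_of hc) n ε hε
  obtain ⟨C₂, h2⟩ := hs (rowsStmt hc) n ε hε
  obtain ⟨C₃, _, h3⟩ := T8.uniform_done ε hε
  have hle : ∀ {x y z : ℝ}, x ≤ y → 0 ≤ z → ∀ {w : ℝ}, y * z ≤ w → x * z ≤ w :=
    fun hxy hz _ hw => le_trans (mul_le_mul_of_nonneg_right hxy hz) hw
  obtain ⟨C, hC1, hC2, hC3⟩ : ∃ C : ℝ, C₁ ≤ C ∧ C₂ ≤ C ∧ C₃ ≤ C :=
    ⟨max C₁ (max C₂ C₃), le_max_left _ _, (le_max_left _ _).trans (le_max_right _ _),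
      (le_max_right _ _).trans (le_max_right _ _)⟩
  refine ⟨C, fun a b hb => ⟨(h1 a b (hle hC1 (by positivity) hb)).1, fun m lam hlam => ?_⟩⟩
  rcases hlam with hlam | ⟨j, hj, hlam⟩
  · exact h2 a b (hle hC2 (by positivity) hb) m lam hlam
  · exact h3 a b m lam (hle hC3 (by positivity) hb) ⟨j, hj, hle hC3 (by positivity) hlam⟩

/-- Version 2, with the linear clause. -/
theorem v2 (hc : CoreN) (hs : RowsStmt → ShortStmt) (hl : CoreL) (n : ℕ) (ε : ℝ) (hε : 0 < ε) :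
    ∃ C : ℝ, ∀ a b : ℕ,
      (C * (a : ℝ) ^ (1 + ε) ≤ b →
        (∀ (V : Type u) [AddCommGroup V] [Module ℂ V] [FiniteDimensional ℂ V],
          Module.finrank ℂ V ≤ n →
          ∃ Ψ : Sym[ℂ]^a (Sym[ℂ]^b V) →ₗ[ℂ] Sym[ℂ]^b (Sym[ℂ]^a V),
            (∀ g : V →ₗ[ℂ] V, Ψ ∘ₗ symMap a (symMap b g) = symMap b (symMap a g) ∘ₗ Ψ) ∧
            Function.Injective Ψ) ∧
        ∀ (m : ℕ) (lam : Fin m → ℕ),
          ((univ.filter fun i => 0 < lam i ∧ (lam i : ℝ) ≤ (a : ℝ) ^ (1 + ε)).card ≤ n ∨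
            ∃ j : ℕ, 1 ≤ j ∧ C * (a : ℝ) ^ (1 + 1 / (j : ℝ) + ε) ≤
              ((∑ i : Fin m, if j ≤ (i : ℕ) then lam i else 0 : ℕ) : ℝ)) →
          plethMult a b m lam ≤ plethMult b a m lam) ∧
      (C * (a : ℝ) ≤ b → ∀ (m : ℕ) (lam : Fin m → ℕ), (univ.filter fun i => lam i ≠ 0).card ≤ n →
        ∏ i : Fin m, (if 1 ≤ (i : ℕ) then max 1 ((lam i : ℝ) / a) else 1) ≤ (a : ℝ) ^ (1 - ε) →
        plethMult a b m lam ≤ plethMult b a m lam) := by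
  obtain ⟨C₁, h1⟩ := bounded_rows.{u} (core_of hc) n ε hε
  obtain ⟨C₂, h2⟩ := hs (rowsStmt hc) n ε hε
  obtain ⟨C₃, _, h3⟩ := T8.uniform_done ε hε
  obtain ⟨C₄, _, h4⟩ := linear_rows hl n ε hε
  have hle : ∀ {x y z : ℝ}, x ≤ y → 0 ≤ z → ∀ {w : ℝ}, y * z ≤ w → x * z ≤ w :=
    fun hxy hz _ hw => le_trans (mul_le_mul_of_nonneg_right hxy hz) hw
  obtain ⟨C, hC1, hC2, hC3, hC4⟩ : ∃ C : ℝ, C₁ ≤ C ∧ C₂ ≤ C ∧ C₃ ≤ C ∧ C₄ ≤ C :=
    ⟨max C₁ (max C₂ (max C₃ C₄)), le_max_left _ _,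
      (le_max_left _ _).trans (le_max_right _ _),
      (le_max_left _ _).trans ((le_max_right _ _).trans (le_max_right _ _)),
      (le_max_right _ _).trans ((le_max_right _ _).trans (le_max_right _ _))⟩
  refine ⟨C, fun a b => ⟨fun hb => ⟨(h1 a b (hle hC1 (by positivity) hb)).1,
    fun m lam hlam => ?_⟩, fun hb m lam hlam hp => ?_⟩⟩
  · rcases hlam with hlam | ⟨j, hj, hlam⟩
    · exact h2 a b (hle hC2 (by positivity) hb) m lam hlam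
    · exact h3 a b m lam (hle hC3 (by positivity) hb) ⟨j, hj, hle hC3 (by positivity) hlam⟩
  · exact h4 a b (hle hC4 (Nat.cast_nonneg a) hb) m lam hlam hp

end Vale.Agent.P181.Z.H310
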